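import Vale.Agent.P181.NR.DefsP
import Vale.Agent.P181.NR.H968.Fin

set_option autoImplicit false

/-!
# P181, NR: `FewNear` from `CoreP`, the theorem for all `a ≤ b` and the polylog theorem
-/

namespace Vale.Agent.P181.NR.H749

open Vale.Agent.P181.T4 (ex)
open Vale.Agent.P181.H280 (plethMult)
open Vale.Agent.P181.PL (dn dn_succ dn_zero exlt)
open Vale.Agent.P181.NR.H968 (dn_le)

/-- the hypothesis makes the third row long -/
theorem two_le {a b l C : ℝ} (ha : 1 ≤ a) (hab : a ≤ b) (hl : 0 ≤ l) (hC : 1 ≤ C)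
    (h : C * b * Real.log (2 + Real.log a) ≤ (b - a) * Real.log (l / a)) : 2 * a ≤ l := by
  have ha0 : 0 < a := by linarith
  have hb0 : 0 < b := by linarith
  have hla : 0 ≤ Real.log a := Real.log_nonneg ha
  have h2 : Real.log 2 ≤ Real.log (2 + Real.log a) :=
    Real.log_le_log (by norm_num) (by linarith)
  have h20 : 0 < Real.log 2 := Real.log_pos (by norm_num)
  have h3 : b * Real.log 2 ≤ C * b * Real.log (2 + Real.log a) := by
    calc b * Real.log 2 ≤ b * Real.log (2 + Real.log a) := mul_le_mul_of_nonneg_left h2 hb0.le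
      _ ≤ C * (b * Real.log (2 + Real.log a)) :=
          le_mul_of_one_le_left (mul_nonneg hb0.le (h20.le.trans h2)) hC
      _ = _ := by ring
  have h4 : 0 < (b - a) * Real.log (l / a) := (mul_pos hb0 h20).trans_le (h3.trans h)
  have hba : 0 ≤ b - a := by linarith
  have h5 : 0 < Real.log (l / a) := by
    by_contra hcon
    push Not at hcon
    have := mul_nonpos_of_nonneg_of_nonpos hba hcon
    linarith
  have h6 : b * Real.log 2 ≤ b * Real.log (l / a) :=
    (h3.trans h).trans (mul_le_mul_of_nonneg_right (by linarith) h5.le)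
  have h7 : Real.log 2 ≤ Real.log (l / a) := le_of_mul_le_mul_left h6 hb0
  have h8 : 0 < l / a := by
    rcases (div_nonneg hl ha0.le).eq_or_lt with h | h
    · rw [← h, Real.log_zero] at h5
      exact absurd h5 (lt_irrefl _)
    · exact h
  have h9 : 2 ≤ l / a := (Real.log_le_log_iff (by norm_num) h8).1 h7
  rwa [le_div_iff₀ ha0] at h9

/-- **(P4)** -/
theorem fewNear (hC : CoreP) (hX : DX.X924.UniX) (hP : TL.H410.PLH) : FewNear := by
  intro k
  obtain ⟨C1, c1, hC1, hX⟩ := hX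
  obtain ⟨C2, c2, hP⟩ := hP
  obtain ⟨C0, hC0⟩ : ∃ C0 : ℝ, C0 = C1 * (k + 2) + |C2| := ⟨_, rfl⟩
  have hk : (1 : ℝ) ≤ k + 2 := by
    have : (0 : ℝ) ≤ k := Nat.cast_nonneg _
    linarith
  have h01 : C1 * (k + 2) ≤ C0 := by
    rw [hC0]
    linarith [abs_nonneg C2]
  have h02 : C2 ≤ C0 := by
    rw [hC0]
    have h1 := le_abs_self C2
    have h2 : 0 ≤ C1 * (k + 2) := by positivity
    linarith
  have h0 : 1 ≤ C0 := (one_le_mul_of_one_le_of_one_le hC1 hk).trans h01
  obtain ⟨C3, hC3, hcore⟩ := hC k (max c1 c2) C0 h0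
  refine ⟨max C3 1, lt_max_of_lt_left hC3, ?_⟩
  intro a b lam hanti hsum hCa hab h3
  have ha1 : (1 : ℝ) ≤ a := (le_max_right _ _).trans hCa
  have ha3 : C3 ≤ a := (le_max_left _ _).trans hCa
  have ha0 : (0 : ℝ) < a := by linarith
  have hab' : (a : ℝ) ≤ b := by exact_mod_cast hab
  have hb0 : (0 : ℝ) ≤ b := by linarith
  have hL := TL.H410.one_le_L a
  have hL1 : (1 + Real.log a) ^ c1 ≤ (1 + Real.log a) ^ (max c1 c2) :=
    pow_le_pow_right₀ hL (le_max_left _ _)
  have hL2 : (1 + Real.log a) ^ c2 ≤ (1 + Real.log a) ^ (max c1 c2) :=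
    pow_le_pow_right₀ hL (le_max_right _ _)
  have hLp : (0 : ℝ) ≤ (1 + Real.log a) ^ c1 := by positivity
  have hLq : (0 : ℝ) ≤ (1 + Real.log a) ^ c2 := by positivity
  have hlog : 0 ≤ Real.log (2 + Real.log a) := Real.log_nonneg (by linarith)
  have hl2 : 2 * (a : ℝ) ≤ lam 2 :=
    two_le ha1 hab' (Nat.cast_nonneg _) (le_max_right C3 1) h3
  rcases le_or_gt (C2 * a * (1 + Real.log a) ^ c2) b with hb | hb
  · exact hP a b hb (k + 3) lam
  have hb' : (b : ℝ) ≤ C0 * a * (1 + Real.log a) ^ (max c1 c2) := by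
    refine hb.le.trans ?_
    calc C2 * a * (1 + Real.log a) ^ c2 ≤ C0 * a * (1 + Real.log a) ^ c2 :=
          mul_le_mul_of_nonneg_right (mul_le_mul_of_nonneg_right h02 ha0.le) hLq
      _ ≤ C0 * a * (1 + Real.log a) ^ (max c1 c2) :=
          mul_le_mul_of_nonneg_left hL2 (by positivity)
  rcases le_or_gt ((a : ℝ) ^ 2) (C0 * (1 + Real.log a) ^ (max c1 c2) * lam 1) with hl | hl
  · refine hcore a b lam hanti hsum ha3 hab hb' hl (le_trans ?_ h3)
    exact mul_le_mul_of_nonneg_right (mul_le_mul_of_nonneg_right (le_max_left _ _) hb0) hlog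
  · apply hX a b hab
    right; right; right
    have hw : C1 * (1 + Real.log a) ^ c1 * (dn lam 1 : ℝ) ≤ (a : ℝ) ^ 2 := by
      have e1 : (dn lam 1 : ℝ) ≤ (k + 2) * lam 1 := by exact_mod_cast dn_le hanti
      calc C1 * (1 + Real.log a) ^ c1 * (dn lam 1 : ℝ)
          ≤ C1 * (1 + Real.log a) ^ c1 * ((k + 2) * lam 1) :=
            mul_le_mul_of_nonneg_left e1 (by positivity)
        _ = (C1 * (k + 2)) * ((1 + Real.log a) ^ c1 * lam 1) := by ring
        _ ≤ C0 * ((1 + Real.log a) ^ c1 * lam 1) :=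
            mul_le_mul_of_nonneg_right h01 (by positivity)
        _ ≤ C0 * ((1 + Real.log a) ^ (max c1 c2) * lam 1) :=
            mul_le_mul_of_nonneg_left (mul_le_mul_of_nonneg_right hL1 (Nat.cast_nonneg _))
              (by linarith)
        _ = C0 * (1 + Real.log a) ^ (max c1 c2) * lam 1 := by ring
        _ ≤ _ := hl.le
    have d1 : dn lam 1 = ex lam 1 + dn lam 2 := dn_succ lam 1
    have d2 : dn lam 2 = ex lam 2 + dn lam 3 := dn_succ lam 2
    have e1 : ex lam 1 = lam 1 := exlt lam (by omega : 1 < k + 3)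
    have e2 : ex lam 2 = lam 2 := exlt lam (by omega : 2 < k + 3)
    have v2 : ((2 : Fin (k + 3)) : ℕ) = 2 := rfl
    have v1 : ((1 : Fin (k + 3)) : ℕ) = 1 := rfl
    have m1 : lam 2 ≤ lam 1 := hanti (by rw [Fin.le_def, v2, v1]; omega)
    have m2 : (lam 2 : ℝ) ≤ lam 1 := by exact_mod_cast m1
    refine ⟨hw.trans (pow_le_pow_left₀ ha0.le hab' 2), hw.trans (pow_le_pow_left₀ ha0.le ?_ 2),
      hw.trans (pow_le_pow_left₀ ha0.le ?_ 2)⟩
    · have e3 : (lam 2 : ℝ) ≤ dn lam 2 := by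
        rw [d2, e2]
        push_cast
        have : (0 : ℝ) ≤ (dn lam 3 : ℝ) := Nat.cast_nonneg _
        linarith
      linarith
    · have e3 : (dn lam 1 : ℝ) = lam 1 + lam 2 + dn lam 3 := by
        rw [d1, d2, e1, e2]
        push_cast
        ring
      have : (0 : ℝ) ≤ (dn lam 3 : ℝ) := Nat.cast_nonneg _
      rw [e3, e2]
      linarith

end Vale.Agent.P181.NR.H749
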